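import Vale.Agent.P038.MathlibUsed
import Mathlib.Order.ConditionallyCompleteLattice.Finset
import Mathlib.Data.Set.Finite.Powerset
import Mathlib.Data.Fintype.Powerset

/-!
# P038 (H423): the key inequality, for an abstract submodular function

`kk h P Q W` is the least value of `h` over the sets `Y` with `P ∪ (W ∩ Q) ⊆ Y ⊆ Q`.
-/

namespace Vale.Agent.P038.H423

open Finset

variable {V : Type*} [Fintype V] [DecidableEq V]

/-- The admissible sets. -/
def Adm (P Q W : Finset V) : Set (Finset V) := {Y | P ⊆ Y ∧ W ∩ Q ⊆ Y ∧ Y ⊆ Q}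

/-- The least value of `h` over `Adm P Q W`. -/
noncomputable def kk (h : Finset V → ℝ) (P Q W : Finset V) : ℝ := sInf (h '' Adm P Q W)

omit [Fintype V] in
theorem mem_Adm {P Q W Y : Finset V} : Y ∈ Adm P Q W ↔ P ⊆ Y ∧ W ∩ Q ⊆ Y ∧ Y ⊆ Q := Iff.rfl

theorem kk_le {h : Finset V → ℝ} {P Q W Y : Finset V} (hY : Y ∈ Adm P Q W) :
    kk h P Q W ≤ h Y :=
  csInf_le (Set.toFinite _).bddBelow ⟨Y, hY, rfl⟩

theorem kk_spec {h : Finset V → ℝ} {P Q : Finset V} (W : Finset V) (hPQ : P ⊆ Q) :
    ∃ Y ∈ Adm P Q W, h Y = kk h P Q W := by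
  have hne : (h '' Adm P Q W).Nonempty :=
    ⟨h Q, Q, ⟨hPQ, Finset.inter_subset_right, Finset.Subset.refl _⟩, rfl⟩
  obtain ⟨Y, hY, hY'⟩ := hne.csInf_mem (Set.toFinite _)
  exact ⟨Y, hY, hY'⟩

theorem kk_mono {h : Finset V → ℝ} {P Q W W' : Finset V} (hPQ : P ⊆ Q) (hW : W ⊆ W') :
    kk h P Q W ≤ kk h P Q W' := by
  obtain ⟨Y, hY, hY'⟩ := kk_spec (h := h) W' hPQ
  rw [← hY']
  exact kk_le ⟨hY.1, (Finset.inter_subset_inter_right hW).trans hY.2.1, hY.2.2⟩

theorem kk_univ {h : Finset V → ℝ} {P Q : Finset V} (hPQ : P ⊆ Q) :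
    kk h P Q Finset.univ = h Q := by
  obtain ⟨Y, hY, hY'⟩ := kk_spec (h := h) Finset.univ hPQ
  rw [← hY']
  congr 1
  refine Finset.Subset.antisymm hY.2.2 ?_
  have := hY.2.1
  rwa [Finset.univ_inter] at this

theorem kk_empty {h : Finset V → ℝ} {P Q : Finset V} (hPQ : P ⊆ Q)
    (hmin : ∀ Y, P ⊆ Y → Y ⊆ Q → h P ≤ h Y) : kk h P Q ∅ = h P := by
  refine le_antisymm (kk_le ⟨Finset.Subset.refl _, by simp, hPQ⟩) ?_
  obtain ⟨Y, hY, hY'⟩ := kk_spec (h := h) ∅ hPQ
  rw [← hY']
  exact hmin Y hY.1 hY.2.2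

omit [Fintype V] in
theorem Adm_insert {P Q W : Finset V} {b : V} (hb : b ∉ Q ∨ b ∈ P) :
    Adm P Q (insert b W) = Adm P Q W := by
  ext Y
  rw [mem_Adm, mem_Adm]
  constructor
  · rintro ⟨h1, h2, h3⟩
    exact ⟨h1, (Finset.inter_subset_inter_right (Finset.subset_insert b W)).trans h2, h3⟩
  · rintro ⟨h1, h2, h3⟩
    refine ⟨h1, ?_, h3⟩
    intro x hx
    obtain ⟨hx1, hx2⟩ := Finset.mem_inter.1 hx
    rcases Finset.mem_insert.1 hx1 with rfl | hx1
    · rcases hb with hb | hb
      · exact absurd hx2 hb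
      · exact h1 hb
    · exact h2 (Finset.mem_inter.2 ⟨hx1, hx2⟩)

omit [Fintype V] in
theorem kk_insert {h : Finset V → ℝ} {P Q W : Finset V} {b : V} (hb : b ∉ Q ∨ b ∈ P) :
    kk h P Q (insert b W) = kk h P Q W := by
  unfold kk
  rw [Adm_insert hb]

theorem kk_step {h : Finset V → ℝ} (hsub : ∀ S T, h (S ∪ T) + h (S ∩ T) ≤ h S + h T)
    {P Q P' Q' W : Finset V} {b : V} (hP : P' ⊆ P) (hQ : Q' ⊆ Q) (hPQ' : P' ⊆ Q')
    (hPQ : P ⊆ Q) (hb : b ∈ Q') :
    kk h P Q (insert b W) - kk h P Q W ≤ kk h P' Q' (insert b W) - kk h P' Q' W := by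
  obtain ⟨Y, hY, hY'⟩ := kk_spec (h := h) (insert b W) hPQ'
  obtain ⟨Z, hZ, hZ'⟩ := kk_spec (h := h) W hPQ
  have h1 : kk h P Q (insert b W) ≤ h (Y ∪ Z) := by
    refine kk_le ⟨hZ.1.trans Finset.subset_union_right, ?_, Finset.union_subset (hY.2.2.trans hQ)
      hZ.2.2⟩
    intro x hx
    obtain ⟨hx1, hx2⟩ := Finset.mem_inter.1 hx
    rcases Finset.mem_insert.1 hx1 with rfl | hx1
    · exact Finset.mem_union_left _ (hY.2.1 (Finset.mem_inter.2 ⟨Finset.mem_insert_self _ _, hb⟩))
    · exact Finset.mem_union_right _ (hZ.2.1 (Finset.mem_inter.2 ⟨hx1, hx2⟩))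
  have h2 : kk h P' Q' W ≤ h (Y ∩ Z) := by
    refine kk_le ⟨Finset.subset_inter hY.1 (hP.trans hZ.1), ?_, Finset.inter_subset_left.trans
      hY.2.2⟩
    intro x hx
    obtain ⟨hx1, hx2⟩ := Finset.mem_inter.1 hx
    refine Finset.mem_inter.2 ⟨hY.2.1 (Finset.mem_inter.2 ⟨Finset.mem_insert_of_mem hx1, hx2⟩),
      hZ.2.1 (Finset.mem_inter.2 ⟨hx1, hQ hx2⟩)⟩
  have h3 := hsub Y Z
  rw [hY', hZ'] at h3
  linarith

/-- The layer cake inequality. -/
theorem layer {w : V → ℝ} (ρ : V → V → Prop) [∀ a z, Decidable (ρ a z)] (n : ℕ) :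
    ∀ (α γ : V → ℝ), (Finset.univ.filter fun a => 0 < α a).card = n → (∀ a, 0 ≤ α a) →
    (∀ z, 0 ≤ γ z) → (∀ a z, ρ a z → α a ≤ γ z) →
    (∀ S : Finset V, (∀ a ∈ S, 0 < α a) →
      ∑ a ∈ S, w a ≤ ∑ z ∈ Finset.univ.filter (fun z => ∃ a ∈ S, ρ a z), w z) →
    (∀ z, 0 ≤ w z) →
    ∑ a, w a * α a ≤ ∑ z, w z * γ z := by
  induction n using Nat.strong_induction_on with
  | _ n ih =>
    intro α γ hn hα hγ h1 hall hw
    by_cases hne : (Finset.univ.filter fun a => 0 < α a).Nonempty
    · obtain ⟨a0, ha0, hmin⟩ := Finset.exists_min_image _ α hne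
      set T := Finset.univ.filter fun a => 0 < α a with hT
      set t := α a0 with ht
      have htpos : 0 < t := (Finset.mem_filter.1 ha0).2
      set R := Finset.univ.filter (fun z => ∃ a ∈ T, ρ a z) with hR
      set α' : V → ℝ := fun a => α a - if a ∈ T then t else 0 with hα'
      set γ' : V → ℝ := fun z => γ z - if z ∈ R then t else 0 with hγ'
      have hα0 : ∀ a, 0 ≤ α' a := by
        intro a
        simp only [hα']
        split_ifs with h
        · have := hmin a h
          linarith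
        · simpa using hα a
      have hγ0 : ∀ z, 0 ≤ γ' z := by
        intro z
        simp only [hγ']
        split_ifs with h
        · obtain ⟨a, ha, haz⟩ := (Finset.mem_filter.1 h).2
          have h2 := hmin a ha
          have h3 := h1 a z haz
          linarith
        · simpa using hγ z
      have hle : ∀ a, α' a ≤ α a := by
        intro a
        simp only [hα']
        split_ifs <;> linarith
      have hcard : (Finset.univ.filter fun a => 0 < α' a).card < n := by
        rw [← hn]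
        refine Finset.card_lt_card (Finset.ssubset_iff_subset_ne.2 ⟨?_, ?_⟩)
        · intro a ha
          exact Finset.mem_filter.2 ⟨Finset.mem_univ _,
            lt_of_lt_of_le (Finset.mem_filter.1 ha).2 (hle a)⟩
        · intro he
          have h2 : a0 ∈ Finset.univ.filter fun a => 0 < α' a := by
            rw [he]
            exact ha0
          have h3 := (Finset.mem_filter.1 h2).2
          simp only [hα', if_pos ha0] at h3
          linarith
      have key := ih _ hcard α' γ' rfl hα0 hγ0 (by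
        intro a z haz
        by_cases ha : a ∈ T
        · have hz : z ∈ R := Finset.mem_filter.2 ⟨Finset.mem_univ _, a, ha, haz⟩
          simp only [hα', hγ', if_pos ha, if_pos hz]
          have := h1 a z haz
          linarith
        · have h2 : α a = 0 := by
            refine le_antisymm ?_ (hα a)
            by_contra hcon
            exact ha (Finset.mem_filter.2 ⟨Finset.mem_univ _, not_le.1 hcon⟩)
          have h3 : α' a = 0 := by
            simp only [hα', if_neg ha, h2, sub_zero]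
          rw [h3]
          exact hγ0 z) (by
        intro S hS
        exact hall S fun a ha => lt_of_lt_of_le (hS a ha) (hle a)) hw
      have h4 := hall T (fun a ha => (Finset.mem_filter.1 ha).2)
      have h5 : ∑ a, w a * α a = ∑ a, w a * α' a + t * ∑ a ∈ T, w a := by
        rw [Finset.mul_sum, ← Finset.sum_filter_add_sum_filter_not Finset.univ (· ∈ T)
          (fun a => w a * α a), ← Finset.sum_filter_add_sum_filter_not Finset.univ (· ∈ T)
          (fun a => w a * α' a)]
        have e1 : (Finset.univ.filter fun a => a ∈ T) = T := by ext; simp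
        rw [e1]
        have e2 : ∑ a ∈ T, w a * α a = ∑ a ∈ T, w a * α' a + ∑ a ∈ T, t * w a := by
          rw [← Finset.sum_add_distrib]
          refine Finset.sum_congr rfl fun a ha => ?_
          simp only [hα', if_pos ha]
          ring
        have e3 : ∑ a ∈ Finset.univ.filter (fun a => ¬ a ∈ T), w a * α a =
            ∑ a ∈ Finset.univ.filter (fun a => ¬ a ∈ T), w a * α' a := by
          refine Finset.sum_congr rfl fun a ha => ?_
          simp only [hα', if_neg (Finset.mem_filter.1 ha).2]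
          ring
        rw [e2, e3]
        ring
      have h6 : ∑ a, w a * γ a = ∑ a, w a * γ' a + t * ∑ a ∈ R, w a := by
        rw [Finset.mul_sum, ← Finset.sum_filter_add_sum_filter_not Finset.univ (· ∈ R)
          (fun a => w a * γ a), ← Finset.sum_filter_add_sum_filter_not Finset.univ (· ∈ R)
          (fun a => w a * γ' a)]
        have e1 : (Finset.univ.filter fun a => a ∈ R) = R := by ext; simp
        rw [e1]
        have e2 : ∑ a ∈ R, w a * γ a = ∑ a ∈ R, w a * γ' a + ∑ a ∈ R, t * w a := by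
          rw [← Finset.sum_add_distrib]
          refine Finset.sum_congr rfl fun a ha => ?_
          simp only [hγ', if_pos ha]
          ring
        have e3 : ∑ a ∈ Finset.univ.filter (fun a => ¬ a ∈ R), w a * γ a =
            ∑ a ∈ Finset.univ.filter (fun a => ¬ a ∈ R), w a * γ' a := by
          refine Finset.sum_congr rfl fun a ha => ?_
          simp only [hγ', if_neg (Finset.mem_filter.1 ha).2]
          ring
        rw [e2, e3]
        ring
      rw [h5, h6]
      have h7 : t * ∑ a ∈ T, w a ≤ t * ∑ a ∈ R, w a := mul_le_mul_of_nonneg_left h4 htpos.le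
      linarith
    · have h2 : ∀ a, α a = 0 := by
        intro a
        refine le_antisymm ?_ (hα a)
        by_contra hcon
        exact hne ⟨a, Finset.mem_filter.2 ⟨Finset.mem_univ _, not_le.1 hcon⟩⟩
      have h3 : ∑ a, w a * α a = 0 := Finset.sum_eq_zero fun a _ => by rw [h2 a, mul_zero]
      rw [h3]
      exact Finset.sum_nonneg fun z _ => mul_nonneg (hw z) (hγ z)

/-- Intersecting with row minimisers. -/
theorem inter_min {h : Finset V → ℝ} (hsub : ∀ S T, h (S ∪ T) + h (S ∩ T) ≤ h S + h T)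
    {B U : V → Finset V} (hR : ∀ a Y, B a ⊆ Y → Y ⊆ U a → h (B a) ≤ h Y)
    (hBU : ∀ a, B a ⊆ U a) (Y : Finset V) (F : Finset V) (hF : ∀ a ∈ F, Y ⊆ U a) :
    h (Y.filter fun x => ∀ a ∈ F, x ∈ B a) ≤ h Y := by
  induction F using Finset.induction_on with
  | empty => simp
  | insert a F ha ih =>
    have ih' := ih fun a' ha' => hF a' (Finset.mem_insert_of_mem ha')
    set Y' := Y.filter fun x => ∀ a ∈ F, x ∈ B a with hY'
    have e : (Y.filter fun x => ∀ a' ∈ insert a F, x ∈ B a') = Y' ∩ B a := by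
      ext x
      simp only [hY', Finset.mem_filter, Finset.mem_inter, Finset.mem_insert, forall_eq_or_imp]
      tauto
    rw [e]
    have h1 := hsub Y' (B a)
    have h2 := hR a (Y' ∪ B a) Finset.subset_union_right
      (Finset.union_subset ((Finset.filter_subset _ _).trans (hF a (Finset.mem_insert_self _ _)))
        (hBU a))
    linarith

/-- The key inequality. -/
theorem key {w : V → ℝ} (hw : ∀ v, 0 ≤ w v) {h : Finset V → ℝ}
    (hsub : ∀ S T, h (S ∪ T) + h (S ∩ T) ≤ h S + h T)
    (r : V → V → Prop) {B U m M : V → Finset V}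
    (hBU : ∀ a, B a ⊆ U a)
    (hm : ∀ z b, b ∈ m z ↔ ∀ a, r a z → b ∈ B a)
    (hM : ∀ z b, b ∈ M z ↔ ∀ a, r a z → b ∈ U a)
    (hR : ∀ a Y, B a ⊆ Y → Y ⊆ U a → h (B a) ≤ h Y)
    (hC : ∀ b (S : Finset V), (∀ a ∈ S, b ∈ U a ∧ b ∉ B a) → ∀ T : Finset V,
      (∀ z, b ∈ M z → (∃ a ∈ S, r a z) → z ∈ T) → ∑ a ∈ S, w a ≤ ∑ z ∈ T, w z) :
    ∑ a, w a * (h (U a) - h (B a)) ≤ ∑ z, w z * (h (M z) - h (m z)) := by
  classical
  have hmM : ∀ z, m z ⊆ M z := fun z b hb =>
    (hM z b).2 fun a ha => hBU a ((hm z b).1 hb a ha)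
  have hMU : ∀ a z, r a z → M z ⊆ U a := fun a z haz b hb => (hM z b).1 hb a haz
  have hmB : ∀ a z, r a z → m z ⊆ B a := fun a z haz b hb => (hm z b).1 hb a haz
  have hR' : ∀ z Y, m z ⊆ Y → Y ⊆ M z → h (m z) ≤ h Y := by
    intro z Y h1 h2
    have h3 := inter_min hsub hR hBU Y (Finset.univ.filter fun a => r a z)
      (fun a ha => h2.trans (hMU a z (Finset.mem_filter.1 ha).2))
    have e : (Y.filter fun x => ∀ a ∈ Finset.univ.filter (fun a => r a z), x ∈ B a) = m z := by
      ext x
      rw [Finset.mem_filter, hm]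
      constructor
      · rintro ⟨_, h4⟩ a ha
        exact h4 a (Finset.mem_filter.2 ⟨Finset.mem_univ _, ha⟩)
      · intro h4
        exact ⟨h1 ((hm z x).2 h4), fun a ha => h4 a (Finset.mem_filter.1 ha).2⟩
    rwa [e] at h3
  have main : ∀ W : Finset V, ∑ a, w a * (kk h (B a) (U a) W - kk h (B a) (U a) ∅) ≤
      ∑ z, w z * (kk h (m z) (M z) W - kk h (m z) (M z) ∅) := by
    intro W
    induction W using Finset.induction_on with
    | empty => simp
    | insert b W hb ih =>
      set α : V → ℝ := fun a => kk h (B a) (U a) (insert b W) - kk h (B a) (U a) W with hα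
      set γ : V → ℝ := fun z => kk h (m z) (M z) (insert b W) - kk h (m z) (M z) W with hγ
      have hα0 : ∀ a, 0 ≤ α a := fun a => by
        simp only [hα]
        exact sub_nonneg.2 (kk_mono (hBU a) (Finset.subset_insert b W))
      have hγ0 : ∀ a, 0 ≤ γ a := fun a => by
        simp only [hγ]
        exact sub_nonneg.2 (kk_mono (hmM a) (Finset.subset_insert b W))
      have hαpos : ∀ a, 0 < α a → b ∈ U a ∧ b ∉ B a := by
        intro a ha
        by_contra hcon
        have : α a = 0 := by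
          simp only [hα]
          rw [kk_insert (by tauto), sub_self]
        linarith
      have h1 := layer (w := w) (fun a z => r a z ∧ b ∈ M z) _ α γ rfl hα0 hγ0 (by
        rintro a z ⟨haz, hbz⟩
        exact kk_step hsub (hmB a z haz) (hMU a z haz) (hmM z) (hBU a) hbz) (by
        intro S hS
        refine hC b S (fun a ha => hαpos a (hS a ha)) _ ?_
        rintro z hz ⟨a, ha, haz⟩
        exact Finset.mem_filter.2 ⟨Finset.mem_univ _, a, ha, haz, hz⟩) hw
      have e1 : ∑ a, w a * (kk h (B a) (U a) (insert b W) - kk h (B a) (U a) ∅) =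
          ∑ a, w a * α a + ∑ a, w a * (kk h (B a) (U a) W - kk h (B a) (U a) ∅) := by
        rw [← Finset.sum_add_distrib]
        refine Finset.sum_congr rfl fun a _ => ?_
        simp only [hα]
        ring
      have e2 : ∑ a, w a * (kk h (m a) (M a) (insert b W) - kk h (m a) (M a) ∅) =
          ∑ a, w a * γ a + ∑ a, w a * (kk h (m a) (M a) W - kk h (m a) (M a) ∅) := by
        rw [← Finset.sum_add_distrib]
        refine Finset.sum_congr rfl fun a _ => ?_
        simp only [hγ]
        ring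
      rw [e1, e2]
      linarith
  have h1 := main Finset.univ
  have e1 : ∀ a, kk h (B a) (U a) Finset.univ - kk h (B a) (U a) ∅ = h (U a) - h (B a) := by
    intro a
    rw [kk_univ (hBU a), kk_empty (hBU a) (hR a)]
  have e2 : ∀ a, kk h (m a) (M a) Finset.univ - kk h (m a) (M a) ∅ = h (M a) - h (m a) := by
    intro a
    rw [kk_univ (hmM a), kk_empty (hmM a) (hR' a)]
  simp only [e1, e2] at h1
  exact h1

end Vale.Agent.P038.H423
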