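import Vale.Agent.P038.H71.Plan
import Vale.Agent.P038.H423.Key

/-!
# P038 (H423): the two cuts, and the contradiction
-/

namespace Vale.Agent.P038.H423

open Finset Vale.Agent.P038.H139 Vale.Agent.P038.H71

universe u

variable {V : Type u} [Fintype V] [DecidableEq V]

/-- `c(S) = w(N⁺[S]) - w(S)`. -/
noncomputable def cc (D : OGraph V) (w : V → ℝ) (S : Finset V) : ℝ := W w (cl D S) - W w S

theorem cl_mono {D : OGraph V} {S T : Finset V} (h : S ⊆ T) : cl D S ⊆ cl D T := by
  intro z hz
  rw [mem_cl] at hz ⊢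
  rcases hz with hz | ⟨y, hy, hyz⟩
  · exact Or.inl (h hz)
  · exact Or.inr ⟨y, h hy, hyz⟩

theorem subset_cl (D : OGraph V) (S : Finset V) : S ⊆ cl D S := fun z hz => mem_cl.2 (Or.inl hz)

theorem W_union_inter (w : V → ℝ) (S T : Finset V) :
    W w (S ∪ T) + W w (S ∩ T) = W w S + W w T := Finset.sum_union_inter

theorem cc_sub (D : OGraph V) {w : V → ℝ} (hw : ∀ v, 0 ≤ w v) (S T : Finset V) :
    cc D w (S ∪ T) + cc D w (S ∩ T) ≤ cc D w S + cc D w T := by
  have h1 := W_union_inter w S T
  have h2 := W_union_inter w (cl D S) (cl D T)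
  have h3 : cl D (S ∪ T) ⊆ cl D S ∪ cl D T := by
    intro z hz
    rw [mem_cl] at hz
    rw [Finset.mem_union, mem_cl, mem_cl]
    rcases hz with hz | ⟨y, hy, hyz⟩
    · rcases Finset.mem_union.1 hz with hz | hz
      · exact Or.inl (Or.inl hz)
      · exact Or.inr (Or.inl hz)
    · rcases Finset.mem_union.1 hy with hy | hy
      · exact Or.inl (Or.inr ⟨y, hy, hyz⟩)
      · exact Or.inr (Or.inr ⟨y, hy, hyz⟩)
  have h4 : cl D (S ∩ T) ⊆ cl D S ∩ cl D T :=
    Finset.subset_inter (cl_mono Finset.inter_subset_left) (cl_mono Finset.inter_subset_right)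
  have h5 := W_mono hw h3
  have h6 := W_mono hw h4
  unfold cc
  linarith

/-- `z` is in the closed in-neighbourhood of `a`. -/
def rr (D : OGraph V) (z a : V) : Prop := z = a ∨ D.arc z a

open Classical in
/-- `MM D U z = ⋂ U a` over the closed in-neighbours `a` of `z`. -/
noncomputable def MM (D : OGraph V) (U : V → Finset V) (z : V) : Finset V :=
  Finset.univ.filter fun b => ∀ a, rr D a z → b ∈ U a

theorem mem_MM {D : OGraph V} {U : V → Finset V} {z b : V} :
    b ∈ MM D U z ↔ ∀ a, rr D a z → b ∈ U a := by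
  classical
  simp [MM]

/-- Feasible pairs. -/
structure Feas (D : OGraph V) (B U : V → Finset V) : Prop where
  refl : ∀ a, a ∈ B a
  out : ∀ a b, D.arc a b → b ∈ B a
  sub : ∀ a, B a ⊆ U a
  rev : ∀ a y, D.arc y a → y ∉ U a

/-- The outer cost. -/
noncomputable def gg (D : OGraph V) (w : V → ℝ) (B U : V → Finset V) : ℝ :=
  ∑ a, w a * (cc D w (B a) + (W w (U a) - W w (MM D U a)))

/-- Row condition of a minimiser. -/
theorem row_opt {D : OGraph V} {w : V → ℝ} (hw : ∀ v, 0 < w v) {B U : V → Finset V}
    (hF : Feas D B U) (hmin : ∀ B' U', Feas D B' U' → gg D w B U ≤ gg D w B' U')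
    (a : V) (Y : Finset V) (h1 : B a ⊆ Y) (h2 : Y ⊆ U a) : cc D w (B a) ≤ cc D w Y := by
  have h3 := hmin (Function.update B a Y) U ⟨?_, ?_, ?_, hF.rev⟩
  · unfold gg at h3
    rw [← Finset.add_sum_erase _ _ (Finset.mem_univ a),
      ← Finset.add_sum_erase _ _ (Finset.mem_univ a)] at h3
    have h4 : ∑ x ∈ Finset.univ.erase a, w x * (cc D w (Function.update B a Y x) +
        (W w (U x) - W w (MM D U x))) = ∑ x ∈ Finset.univ.erase a, w x * (cc D w (B x) +
        (W w (U x) - W w (MM D U x))) := by
      refine Finset.sum_congr rfl fun x hx => ?_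
      rw [Function.update_of_ne (Finset.ne_of_mem_erase hx)]
    rw [h4, Function.update_self] at h3
    have h5 : w a * cc D w (B a) ≤ w a * cc D w Y := by linarith
    exact le_of_mul_le_mul_left h5 (hw a)
  · intro x
    by_cases hx : x = a
    · subst hx
      rw [Function.update_self]
      exact h1 (hF.refl x)
    · rw [Function.update_of_ne hx]
      exact hF.refl x
  · intro x b hb
    by_cases hx : x = a
    · subst hx
      rw [Function.update_self]
      exact h1 (hF.out x b hb)
    · rw [Function.update_of_ne hx]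
      exact hF.out x b hb
  · intro x
    by_cases hx : x = a
    · subst hx
      rw [Function.update_self]
      exact h2
    · rw [Function.update_of_ne hx]
      exact hF.sub x

/-- Exchange of the order of summation for rows and columns. -/
theorem sum_rows (w : V → ℝ) (R : V → Finset V) :
    ∑ a, w a * W w (R a) = ∑ b, w b * W w (Finset.univ.filter fun a => b ∈ R a) := by
  unfold W
  simp only [Finset.sum_filter, Finset.mul_sum]
  have e : ∀ a, ∑ i ∈ R a, w a * w i = ∑ i, if i ∈ R a then w a * w i else 0 := by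
    intro a
    rw [← Finset.sum_filter]
    refine Finset.sum_congr ?_ fun _ _ => rfl
    ext x
    simp
  simp only [e]
  rw [Finset.sum_comm]
  refine Finset.sum_congr rfl fun b _ => Finset.sum_congr rfl fun a _ => ?_
  split_ifs
  · ring
  · ring

/-- Column condition of a minimiser. -/
theorem col_opt {D : OGraph V} {w : V → ℝ} (hw : ∀ v, 0 < w v) {B U : V → Finset V}
    (hF : Feas D B U) (hmin : ∀ B' U', Feas D B' U' → gg D w B U ≤ gg D w B' U')
    (b : V) (S : Finset V) (hS : ∀ a ∈ S, b ∈ U a ∧ b ∉ B a) (T : Finset V)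
    (hT : ∀ z, b ∈ MM D U z → (∃ a ∈ S, rr D a z) → z ∈ T) :
    ∑ a ∈ S, w a ≤ ∑ z ∈ T, w z := by
  classical
  set U' : V → Finset V := fun a => if a ∈ S then (U a).erase b else U a with hU'
  have hU'sub : ∀ a, U' a ⊆ U a := by
    intro a
    simp only [hU']
    split_ifs
    · exact Finset.erase_subset _ _
    · exact Finset.Subset.refl _
  have h3 := hmin B U' ⟨hF.refl, hF.out, ?_, fun a y hya hy => hF.rev a y hya (hU'sub a hy)⟩
  · have hUW : ∀ a, W w (U' a) = W w (U a) - if a ∈ S then w b else 0 := by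
      intro a
      simp only [hU']
      split_ifs with ha
      · unfold W
        rw [← Finset.add_sum_erase _ _ (hS a ha).1]
        ring
      · ring
    have hMW : ∀ z, W w (MM D U z) - (if z ∈ T then w b else 0) ≤ W w (MM D U' z) := by
      intro z
      by_cases hz : z ∈ T
      · rw [if_pos hz]
        have h5 : (MM D U z).erase b ⊆ MM D U' z := by
          intro x hx
          obtain ⟨hxb, hx⟩ := Finset.mem_erase.1 hx
          rw [mem_MM] at hx ⊢
          intro a ha
          simp only [hU']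
          split_ifs
          · exact Finset.mem_erase.2 ⟨hxb, hx a ha⟩
          · exact hx a ha
        have h6 := W_mono (fun v => (hw v).le) h5
        by_cases hb : b ∈ MM D U z
        · have h7 : W w (MM D U z) = w b + W w ((MM D U z).erase b) := by
            unfold W
            rw [Finset.add_sum_erase _ _ hb]
          linarith
        · rw [Finset.erase_eq_of_notMem hb] at h6
          have := (hw b).le
          linarith
      · rw [if_neg hz, sub_zero]
        refine W_mono (fun v => (hw v).le) fun x hx => ?_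
        have hx' := mem_MM.1 hx
        rw [mem_MM]
        intro a ha
        simp only [hU']
        split_ifs with haS
        · refine Finset.mem_erase.2 ⟨?_, hx' a ha⟩
          rintro rfl
          exact hz (hT z hx ⟨a, haS, ha⟩)
        · exact hx' a ha
    have h4 : gg D w B U' ≤ gg D w B U - w b * ∑ a ∈ S, w a + w b * ∑ z ∈ T, w z := by
      have e1 : w b * ∑ a ∈ S, w a = ∑ a, w a * (if a ∈ S then w b else 0) := by
        rw [Finset.mul_sum]
        simp only [mul_ite, mul_zero]
        rw [← Finset.sum_filter]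
        refine Finset.sum_congr (by ext x; simp) fun x _ => by ring
      have e2 : w b * ∑ a ∈ T, w a = ∑ a, w a * (if a ∈ T then w b else 0) := by
        rw [Finset.mul_sum]
        simp only [mul_ite, mul_zero]
        rw [← Finset.sum_filter]
        refine Finset.sum_congr (by ext x; simp) fun x _ => by ring
      rw [e1, e2]
      unfold gg
      rw [← Finset.sum_sub_distrib, ← Finset.sum_add_distrib]
      refine Finset.sum_le_sum fun a _ => ?_
      have h5 := hUW a
      have h6 := hMW a
      rw [h5]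
      have h7 := mul_le_mul_of_nonneg_left h6 (hw a).le
      linarith
    have h5 : w b * ∑ a ∈ S, w a ≤ w b * ∑ z ∈ T, w z := by linarith
    exact le_of_mul_le_mul_left h5 (hw b)
  · intro a x hx
    simp only [hU']
    split_ifs with ha
    · refine Finset.mem_erase.2 ⟨?_, hF.sub a hx⟩
      rintro rfl
      exact (hS a ha).2 hx
    · exact hF.sub a hx

open Classical in
/-- The candidate `Y`. -/
noncomputable def YY (D : OGraph V) (U : V → Finset V) (x : V) : Finset V :=
  Finset.univ.filter fun t => t = x ∨ x ∉ cl D (U t)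

theorem mem_YY {D : OGraph V} {U : V → Finset V} {x t : V} :
    t ∈ YY D U x ↔ t = x ∨ x ∉ cl D (U t) := by
  classical
  simp [YY]

open Classical in
/-- The new `U`. -/
noncomputable def UU (D : OGraph V) (Y : V → Finset V) (a : V) : Finset V :=
  Finset.univ.filter fun b => b = a ∨ a ∉ cl D (Y b)

theorem mem_UU {D : OGraph V} {Y : V → Finset V} {a b : V} :
    b ∈ UU D Y a ↔ b = a ∨ a ∉ cl D (Y b) := by
  classical
  simp [UU]

theorem mem_MM_self {D : OGraph V} {B U : V → Finset V} (hF : Feas D B U) (a : V) :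
    a ∈ MM D B a := by
  rw [mem_MM]
  rintro z (rfl | hz)
  · exact hF.refl z
  · exact hF.out z a hz

theorem mem_MMU_self {D : OGraph V} {B U : V → Finset V} (hF : Feas D B U) (a : V) :
    a ∈ MM D U a := by
  rw [mem_MM]
  exact fun z hz => hF.sub z (mem_MM.1 (mem_MM_self hF a) z hz)

/-- No reversed arc in `N⁺[M_a]`. -/
theorem cl_MM_rev {D : OGraph V} {B U : V → Finset V} (hF : Feas D B U) {a b : V}
    (hb : b ∈ cl D (MM D U a)) (hba : D.arc b a) : False := by
  rw [mem_cl] at hb
  rcases hb with hb | ⟨y, hy, hyb⟩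
  · exact hF.rev a b hba (mem_MM.1 hb a (Or.inl rfl))
  · exact hF.rev b y hyb (mem_MM.1 hy b (Or.inr hba))

theorem MM_mono {D : OGraph V} {B U : V → Finset V} (hF : Feas D B U) (a : V) :
    MM D B a ⊆ MM D U a := by
  intro x hx
  rw [mem_MM] at hx ⊢
  exact fun z hz => hF.sub z (hx z hz)

/-- The new pair is feasible. -/
theorem feas_new {D : OGraph V} {B U : V → Finset V} (hF : Feas D B U) :
    Feas D (fun a => cl D (MM D B a)) (UU D (YY D U)) where
  refl a := mem_cl.2 (Or.inl (mem_MM_self hF a))
  out a b hab := mem_cl.2 (Or.inr ⟨a, mem_MM_self hF a, hab⟩)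
  sub a := by
    intro b hb
    rw [mem_UU]
    by_contra hcon
    push Not at hcon
    obtain ⟨hne, hcon⟩ := hcon
    rw [mem_cl] at hcon
    have hb' : b ∈ cl D (MM D U a) := cl_mono (MM_mono hF a) hb
    have key : ∀ t, rr D t a → t ∈ YY D U b → False := by
      intro t hta htY
      rcases mem_YY.1 htY with rfl | htY
      · rcases hta with hta | hta
        · exact hne hta
        · exact cl_MM_rev hF hb' hta
      · refine htY ?_
        exact cl_mono (fun x hx => mem_MM.1 hx t hta) hb'
    rcases hcon with hcon | ⟨t, ht, hta⟩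
    · exact key a (Or.inl rfl) hcon
    · exact key t (Or.inr hta) ht
  rev a y hya hy := by
    rcases mem_UU.1 hy with rfl | hy
    · exact D.loopless _ hya
    · exact hy (mem_cl.2 (Or.inr ⟨y, mem_YY.2 (Or.inl rfl), hya⟩))

/-- The cost of `U = UU Y` in terms of the rows `N⁺[Y b]`. -/
theorem cost_UU {D : OGraph V} {w : V → ℝ} (hw : ∀ v, 0 < w v) {B : V → Finset V}
    {Y : V → Finset V} (hY : ∀ b, b ∈ Y b) (hF : Feas D B (UU D Y)) :
    ∑ a, w a * (W w (UU D Y a) - W w (MM D (UU D Y) a)) ≤ ∑ b, w b * cc D w (cl D (Y b)) := by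
  classical
  have hw0 : ∀ v, 0 ≤ w v := fun v => (hw v).le
  simp only [mul_sub, Finset.sum_sub_distrib]
  rw [sum_rows w (UU D Y), sum_rows w (MM D (UU D Y)), ← Finset.sum_sub_distrib]
  refine Finset.sum_le_sum fun b _ => ?_
  rw [← mul_sub]
  refine mul_le_mul_of_nonneg_left ?_ (hw0 b)
  unfold cc
  set C := cl D (Y b) with hC
  have hbC : b ∈ C := subset_cl D _ (hY b)
  have h1 : (Finset.univ.filter fun a => b ∈ UU D Y a) = insert b (Finset.univ \ C) := by
    ext z
    simp only [Finset.mem_filter, Finset.mem_univ, true_and, Finset.mem_insert,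
      Finset.mem_sdiff, mem_UU]
    rw [eq_comm]
  have h2 : insert b (Finset.univ \ cl D C) ⊆ Finset.univ.filter fun a => b ∈ MM D (UU D Y) a := by
    intro z hz
    refine Finset.mem_filter.2 ⟨Finset.mem_univ _, ?_⟩
    rcases Finset.mem_insert.1 hz with rfl | hz
    · exact mem_MMU_self hF z
    · rw [mem_MM]
      intro a ha
      rw [mem_UU]
      right
      intro haC
      refine (Finset.mem_sdiff.1 hz).2 (mem_cl.2 ?_)
      rcases ha with rfl | ha
      · exact Or.inl haC
      · exact Or.inr ⟨a, haC, ha⟩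
  have h3 := W_mono hw0 h2
  have h4 : W w (insert b (Finset.univ \ C)) = w b + (W w Finset.univ - W w C) := by
    rw [← W_sdiff (Finset.subset_univ C)]
    unfold W
    rw [Finset.sum_insert]
    simp [hbC]
  have h5 : W w (insert b (Finset.univ \ cl D C)) = w b + (W w Finset.univ - W w (cl D C)) := by
    rw [← W_sdiff (Finset.subset_univ (cl D C))]
    unfold W
    rw [Finset.sum_insert]
    simp [subset_cl D _ hbC]
  have e1 : W w (Finset.univ.filter fun a => b ∈ UU D Y a) = w b + (W w Finset.univ - W w C) := by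
    rw [h1, h4]
  have e2 := h3
  rw [h5] at e2
  have goal' : W w (Finset.univ.filter fun a => b ∈ UU D Y a) -
      W w (Finset.univ.filter fun a => b ∈ MM D (UU D Y) a) ≤ W w (cl D C) - W w C := by
    linarith
  exact goal'

/-- The cost of the candidate `Y`. -/
theorem cost_YY {D : OGraph V} {w : V → ℝ} (hw : ∀ v, 0 < w v) {B U : V → Finset V}
    (hF : Feas D B U) :
    ∑ b, w b * cc D w (YY D U b) ≤ ∑ a, w a * (W w (cl D (U a)) - W w (cl D (MM D U a))) := by
  classical
  have hw0 : ∀ v, 0 ≤ w v := fun v => (hw v).le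
  simp only [mul_sub, Finset.sum_sub_distrib]
  rw [sum_rows w (fun a => cl D (U a)), sum_rows w (fun a => cl D (MM D U a)),
    ← Finset.sum_sub_distrib]
  refine Finset.sum_le_sum fun x _ => ?_
  rw [← mul_sub]
  refine mul_le_mul_of_nonneg_left ?_ (hw0 x)
  unfold cc
  have hxx : x ∈ cl D (U x) := mem_cl.2 (Or.inl (hF.sub x (hF.refl x)))
  have h1 : (Finset.univ.filter fun a => x ∈ cl D (U a)) = insert x (Finset.univ \ YY D U x) := by
    ext z
    simp only [Finset.mem_filter, Finset.mem_univ, true_and, Finset.mem_insert,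
      Finset.mem_sdiff, mem_YY]
    constructor
    · intro h
      by_cases hz : z = x
      · exact Or.inl hz
      · right
        push Not
        exact ⟨hz, h⟩
    · rintro (rfl | h)
      · exact hxx
      · push Not at h
        exact h.2
  have h2 : (Finset.univ.filter fun a => x ∈ cl D (MM D U a)) ⊆
      insert x (Finset.univ \ cl D (YY D U x)) := by
    intro t ht
    have ht' := (Finset.mem_filter.1 ht).2
    rw [Finset.mem_insert]
    by_cases htx : t = x
    · exact Or.inl htx
    right
    refine Finset.mem_sdiff.2 ⟨Finset.mem_univ _, fun hcon => ?_⟩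
    have key : ∀ s, rr D s t → s ∈ YY D U x → False := by
      intro s hst hsY
      rcases mem_YY.1 hsY with rfl | hsY
      · rcases hst with hst | hst
        · exact htx hst.symm
        · exact cl_MM_rev hF ht' hst
      · exact hsY (cl_mono (fun y hy => mem_MM.1 hy s hst) ht')
    rcases mem_cl.1 hcon with hcon | ⟨s, hs, hst⟩
    · exact key t (Or.inl rfl) hcon
    · exact key s (Or.inr hst) hs
  have h3 := W_mono hw0 h2
  have hxY : x ∈ YY D U x := mem_YY.2 (Or.inl rfl)
  have h4 : W w (insert x (Finset.univ \ YY D U x)) =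
      w x + (W w Finset.univ - W w (YY D U x)) := by
    rw [← W_sdiff (Finset.subset_univ (YY D U x))]
    unfold W
    rw [Finset.sum_insert]
    simp [hxY]
  have h5 : W w (insert x (Finset.univ \ cl D (YY D U x))) =
      w x + (W w Finset.univ - W w (cl D (YY D U x))) := by
    rw [← W_sdiff (Finset.subset_univ (cl D (YY D U x)))]
    unfold W
    rw [Finset.sum_insert]
    simp [subset_cl D _ hxY]
  rw [h5] at h3
  have e1 : W w (Finset.univ.filter fun a => x ∈ cl D (U a)) =
      w x + (W w Finset.univ - W w (YY D U x)) := by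
    rw [h1, h4]
  have goal' : W w (cl D (YY D U x)) - W w (YY D U x) ≤
      W w (Finset.univ.filter fun a => x ∈ cl D (U a)) -
      W w (Finset.univ.filter fun a => x ∈ cl D (MM D U a)) := by
    linarith
  exact goal'

/-- The contradiction, from the strict set inequality. -/
theorem no_strict [Nonempty V] {D : OGraph V} {w : V → ℝ} (hw : ∀ v, 0 < w v)
    (hout : ∀ v, ∃ u, D.arc v u)
    (hG : ∀ S : Finset V, cl D S ≠ S → cc D w (cl D S) < cc D w S) : False := by
  classical
  have hw0 : ∀ v, 0 ≤ w v := fun v => (hw v).le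
  have hG' : ∀ S : Finset V, cc D w (cl D S) ≤ cc D w S := by
    intro S
    by_cases h : cl D S = S
    · rw [h]
    · exact (hG S h).le
  -- a minimiser exists
  obtain ⟨⟨B, U⟩, hF, hmin'⟩ := Set.exists_min_image
    {p : (V → Finset V) × (V → Finset V) | Feas D p.1 p.2} (fun p => gg D w p.1 p.2)
    (Set.toFinite _) ⟨(fun a => insert a (N1 D a), fun a => insert a (N1 D a)), by
      refine ⟨fun a => Finset.mem_insert_self _ _,
        fun a b hab => Finset.mem_insert_of_mem (mem_N1.2 hab),
        fun a => Finset.Subset.refl _, fun a y hya hy => ?_⟩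
      rcases Finset.mem_insert.1 hy with rfl | hy
      · exact D.loopless _ hya
      · exact D.asymm _ _ hya (mem_N1.1 hy)⟩
  have hF : Feas D B U := hF
  have hmin : ∀ B' U', Feas D B' U' → gg D w B U ≤ gg D w B' U' :=
    fun B' U' h => hmin' (B', U') h
  have hkey := key hw0 (cc_sub D hw0) (rr D) (B := B) (U := U) (m := MM D B) (M := MM D U)
    hF.sub (fun z b => mem_MM) (fun z b => mem_MM)
    (fun a Y h1 h2 => row_opt hw hF hmin a Y h1 h2)
    (fun b S hS T hT => col_opt hw hF hmin b S hS T hT)
  have hnew := hmin _ _ (feas_new hF)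
  have hUU := cost_UU hw (Y := YY D U) (fun b => mem_YY.2 (Or.inl rfl)) (feas_new hF)
  have hYY := cost_YY hw hF
  -- strictness somewhere
  obtain ⟨a, ha⟩ : ∃ a, cl D (MM D B a) ≠ MM D B a := by
    by_contra hcon
    push Not at hcon
    obtain ⟨C, hC, hCmin⟩ := Set.exists_min_image
      {C : Finset V | C.Nonempty ∧ cl D C = C} Finset.card (Set.toFinite _)
      ⟨Finset.univ, Finset.univ_nonempty, Finset.eq_univ_iff_forall.2 fun x =>
        mem_cl.2 (Or.inl (Finset.mem_univ x))⟩
    obtain ⟨⟨b, hb⟩, hCc⟩ := hC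
    have hsub : ∀ x ∈ C, C ⊆ MM D B x := by
      intro x hx
      have h1 : C ∩ MM D B x ∈ {C : Finset V | C.Nonempty ∧ cl D C = C} := by
        refine ⟨⟨x, Finset.mem_inter.2 ⟨hx, mem_MM_self hF x⟩⟩, ?_⟩
        refine Finset.Subset.antisymm ?_ (subset_cl D _)
        refine Finset.subset_inter ?_ ?_
        · exact (cl_mono Finset.inter_subset_left).trans hCc.subset
        · exact (cl_mono Finset.inter_subset_right).trans (hcon x).subset
      have h2 := hCmin _ h1
      have h3 : C ∩ MM D B x = C := Finset.eq_of_subset_of_card_le Finset.inter_subset_left h2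
      rw [← h3]
      exact Finset.inter_subset_right
    obtain ⟨b', hbb'⟩ := hout b
    have hb' : b' ∈ C := by
      rw [← hCc]
      exact mem_cl.2 (Or.inr ⟨b, hb, hbb'⟩)
    have h4 := hsub b' hb' hb
    exact hF.rev b' b hbb' (hF.sub b' (mem_MM.1 h4 b' (Or.inl rfl)))
  have hs1 : ∑ a, w a * cc D w (cl D (MM D B a)) < ∑ a, w a * cc D w (MM D B a) :=
    Finset.sum_lt_sum (fun x _ => mul_le_mul_of_nonneg_left (hG' _) (hw0 x))
      ⟨a, Finset.mem_univ _, mul_lt_mul_of_pos_left (hG _ ha) (hw a)⟩
  have hs2 : ∑ a, w a * cc D w (cl D (YY D U a)) ≤ ∑ a, w a * cc D w (YY D U a) :=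
    Finset.sum_le_sum fun x _ => mul_le_mul_of_nonneg_left (hG' _) (hw0 x)
  have e1 : gg D w (fun a => cl D (MM D B a)) (UU D (YY D U)) =
      ∑ a, w a * cc D w (cl D (MM D B a)) +
      ∑ a, w a * (W w (UU D (YY D U) a) - W w (MM D (UU D (YY D U)) a)) := by
    unfold gg
    rw [← Finset.sum_add_distrib]
    exact Finset.sum_congr rfl fun _ _ => by ring
  have e2 : gg D w B U = ∑ a, w a * cc D w (B a) + ∑ a, w a * (W w (U a) - W w (MM D U a)) := by
    unfold gg
    rw [← Finset.sum_add_distrib]
    exact Finset.sum_congr rfl fun _ _ => by ring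
  have e3 : ∑ a, w a * (cc D w (U a) - cc D w (B a)) =
      ∑ a, w a * W w (cl D (U a)) - ∑ a, w a * W w (U a) - ∑ a, w a * cc D w (B a) := by
    rw [← Finset.sum_sub_distrib, ← Finset.sum_sub_distrib]
    exact Finset.sum_congr rfl fun _ _ => by unfold cc; ring
  have e4 : ∑ a, w a * (cc D w (MM D U a) - cc D w (MM D B a)) =
      ∑ a, w a * W w (cl D (MM D U a)) - ∑ a, w a * W w (MM D U a) -
        ∑ a, w a * cc D w (MM D B a) := by
    rw [← Finset.sum_sub_distrib, ← Finset.sum_sub_distrib]
    exact Finset.sum_congr rfl fun _ _ => by unfold cc; ring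
  have e5 : ∑ a, w a * (W w (U a) - W w (MM D U a)) =
      ∑ a, w a * W w (U a) - ∑ a, w a * W w (MM D U a) := by
    rw [← Finset.sum_sub_distrib]
    exact Finset.sum_congr rfl fun _ _ => by ring
  have e6 : ∑ a, w a * (W w (cl D (U a)) - W w (cl D (MM D U a))) =
      ∑ a, w a * W w (cl D (U a)) - ∑ a, w a * W w (cl D (MM D U a)) := by
    rw [← Finset.sum_sub_distrib]
    exact Finset.sum_congr rfl fun _ _ => by ring
  rw [e3, e4] at hkey
  rw [e1, e2, e5] at hnew
  rw [e6] at hYY
  linarith

/-- Strict (G): in the normal form with the fewest arcs. -/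
theorem strictG {D : OGraph V} {w : V → ℝ} (h : NFmin 1 D w) (S : Finset V) (hS : cl D S ≠ S) :
    cc D w (cl D S) < cc D w S := by
  classical
  set L := Lx D S with hL
  have hclS : cl D S = S ∪ L := by
    ext z
    rw [mem_cl, Finset.mem_union, hL]
    unfold Lx
    rw [Finset.mem_sdiff, mem_outS]
    tauto
  have hdisj : Disjoint S L := by
    rw [hL]
    unfold Lx
    exact Finset.disjoint_sdiff
  have hLne : L ≠ ∅ := by
    intro h0
    apply hS
    rw [hclS, h0, Finset.union_empty]
  have h1 := plan_lt h S ∅ (Finset.ssubset_iff_subset_ne.2 ⟨Finset.empty_subset _,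
    fun h0 => hLne h0.symm⟩)
  unfold dd at h1
  have e0 : cl D (∅ : Finset V) = ∅ := by
    ext z
    simp [mem_cl]
  rw [e0] at h1
  have e1 : W w ((∅ : Finset V) \ S) = 0 := by simp [W]
  have e2 : W w (∅ : Finset V) = 0 := by simp [W]
  rw [e1, e2] at h1
  have e3 : cl D (cl D S) = S ∪ (cl D L \ S) := by
    rw [hclS]
    ext z
    have a1 : z ∈ cl D (S ∪ L) ↔ z ∈ S ∪ L ∨ ∃ y ∈ S ∪ L, D.arc y z := mem_cl
    have a2 : z ∈ S ∪ (cl D L \ S) ↔ z ∈ S ∨ ((z ∈ L ∨ ∃ y ∈ L, D.arc y z) ∧ z ∉ S) := by
      rw [Finset.mem_union, Finset.mem_sdiff, mem_cl]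
    rw [a1, a2]
    constructor
    · rintro (hz | ⟨y, hy, hyz⟩)
      · rcases Finset.mem_union.1 hz with hz | hz
        · exact Or.inl hz
        · by_cases hzS : z ∈ S
          · exact Or.inl hzS
          · exact Or.inr ⟨Or.inl hz, hzS⟩
      · by_cases hzS : z ∈ S
        · exact Or.inl hzS
        rcases Finset.mem_union.1 hy with hy | hy
        · right
          refine ⟨Or.inl ?_, hzS⟩
          rw [hL]
          exact Finset.mem_sdiff.2 ⟨mem_outS.2 ⟨y, hy, hyz⟩, hzS⟩
        · exact Or.inr ⟨Or.inr ⟨y, hy, hyz⟩, hzS⟩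
    · rintro (hz | ⟨hz | ⟨y, hy, hyz⟩, hzS⟩)
      · exact Or.inl (Finset.mem_union_left _ hz)
      · exact Or.inl (Finset.mem_union_right _ hz)
      · exact Or.inr ⟨y, Finset.mem_union_right _ hy, hyz⟩
  unfold cc
  rw [e3, W_union Finset.disjoint_sdiff, hclS, W_union hdisj]
  linarith

theorem no_NF (V : Type u) [Fintype V] [Nonempty V] (D : OGraph V) (w : V → ℝ) :
    ¬ NF 1 D w := by
  classical
  intro h
  obtain ⟨D', w', h'⟩ := exists_nfmin h
  refine no_strict (D := D') (w := w') h'.pos ?_ (fun S hS => strictG h' S hS)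
  intro v
  by_contra hcon
  push Not at hcon
  have h1 : N1 D' v = ∅ := by
    ext u
    rw [mem_N1]
    simp [hcon u]
  have h2 := h'.one v
  unfold Fw at h2
  rw [h1] at h2
  have h3 := W_nonneg (fun v => (h'.pos v).le) (N2 D' v)
  have h4 : W w' (∅ : Finset V) = 0 := by simp [W]
  rw [h4] at h2
  linarith

/-- Weighted form of Seymour's second neighbourhood conjecture. -/
theorem seymour_weighted {V : Type u} [Fintype V] [Nonempty V] (D : OGraph V) (w : V → ℝ)
    (hw : ∀ v, 0 ≤ w v) : ∃ v, ∑ u ∈ N1 D v, w u ≤ ∑ u ∈ N2 D v, w u := by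
  obtain ⟨v, hv⟩ := snc_of_noNF (lam := 1) zero_le_one
    (fun V _ _ D w => no_NF V D w) D w hw
  exact ⟨v, by simpa using hv⟩

/-- Seymour's second neighbourhood conjecture. -/
theorem seymour {V : Type u} [Fintype V] [Nonempty V] (D : OGraph V) :
    ∃ v, (N1 D v).card ≤ (N2 D v).card := by
  obtain ⟨v, hv⟩ := seymour_weighted D (fun _ => 1) (fun _ => zero_le_one)
  refine ⟨v, ?_⟩
  simp only [Finset.sum_const, nsmul_eq_mul, mul_one] at hv
  exact_mod_cast hv

end Vale.Agent.P038.H423
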